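import Vale.Agent.P144E.Basic
import Vale.Agent.P144D.B.HomDec
import Vale.Agent.P144D.B.GapOf
import Vale.Agent.P144D.B.Rel

/-!
Decay and solvability at a rough boundary.
-/

namespace Vale.Agent.P144Z

open Finset Matrix HomDec

namespace An2

variable {M : ℕ}

/-- The face with the coordinates `v`, seen from `z`. -/
def fc (R : Reg M) (z : Tor M) (v : ℤ × ℤ) : Tor M := z + prj M (if R.fr then -v else v)

theorem out_of {R : Reg M} {z : Tor M} {v : ℤ × ℤ} (h : fc R z v ∉ R.In) : R.out z v := by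
  unfold fc at h
  unfold Reg.out
  split_ifs at h ⊢
  · exact ⟨0, by rwa [cn_zero, add_zero, sub_eq_add_neg, ← prj_neg]⟩
  · exact h

variable [NeZero M]

theorem tdist_fc (R : Reg M) (z : Tor M) (u v : ℤ × ℤ) : tdist (fc R z u) (fc R z v) ≤ zd u v := by
  refine (G.tdist_add_prj_le' z _ _).trans ?_
  unfold zd
  split_ifs
  · simp only [Prod.fst_neg, Prod.snd_neg]
    omega
  · exact le_rfl

theorem exists_fc (R : Reg M) (z f : Tor M) : ∃ v, zd v 0 = tdist f z ∧ fc R z v = f := by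
  have h1 := G.add_prj_lft f z
  have h2 : zd (lft (f - z)) 0 = tdist f z := by simp [zd, G.tdist_def]
  unfold fc
  split_ifs
  · exact ⟨-lft (f - z), by rw [zd_neg, h2], by rw [neg_neg, h1]⟩
  · exact ⟨_, h2, h1⟩

theorem out_of_sq {R : Reg M} {z : Tor M} {v : ℤ × ℤ}
    (h : ∀ g, tdist g (fc R z v) ≤ 1 → g ∉ R.In) : R.out z v ∧ ∀ a, ¬ R.pr z v a := by
  have h0 := h _ (by rw [tdist_self]; omega)
  refine ⟨out_of h0, fun a ha => ?_⟩
  unfold fc at h h0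
  unfold Reg.pr at ha
  split_ifs at h h0 ha
  · rw [prj_neg, ← sub_eq_add_neg] at h0
    exact h0 ha.1
  · have h1 : ∀ k, z + prj M (v - cn k) ∉ R.In := fun k => by
      refine h _ ((G.tdist_add_prj_le' z _ _).trans ?_)
      have := cn_cases k
      simp only [Prod.fst_sub, Prod.snd_sub]
      omega
    exact ha.elim (h1 _) (h1 _)

/-- There is an outer face on every contour. -/
theorem contour {I : Finset (Tor M)} {N r : ℕ} (h : Rgh I N r) {b : Tor M} (hb : b ∉ I) {s : ℕ}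
    (h1 : N * ((N + 1) * (s + 1)) ≤ r) (h2 : 4 * s < M) : ∃ f, f ∉ I ∧ tdist f b = s := by
  obtain ⟨x, hx, hx'⟩ := h.cork b hb s
    (le_trans (Nat.mul_le_mul_left _ (Nat.le_mul_of_pos_left _ (by omega))) h1)
  obtain ⟨g, g1, g2⟩ : ∃ g, tdist g x ≤ s ∧ s ≤ tdist g b := by
    have a1 := G.tdist_add_prj_le x ((s : ℤ), 0)
    have a2 := G.tdist_add_prj_le x (-(s : ℤ), 0)
    have a3 : tdist (x + prj M ((s : ℤ), 0)) (x + prj M (-(s : ℤ), 0)) = 2 * s := by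
      rw [G.tdist_def, add_sub_add_left_eq_sub, ← G.prj_sub, lft_prj]
      · simp only [Prod.mk_sub_mk]
        omega
      · simp only [Prod.mk_sub_mk]
        rw [abs_of_nonneg (by omega)]
        omega
      · simp only [Prod.mk_sub_mk, sub_self, abs_zero]
        omega
    have a4 := tdist_triangle (x + prj M ((s : ℤ), 0)) b (x + prj M (-(s : ℤ), 0))
    rw [tdist_comm b] at a4
    simp only [Int.natAbs_neg, Int.natAbs_natCast, Int.natAbs_zero] at a1 a2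
    by_cases a5 : s ≤ tdist (x + prj M ((s : ℤ), 0)) b
    · exact ⟨_, by omega, a5⟩
    · exact ⟨x + prj M (-(s : ℤ), 0), by omega, by omega⟩
  have g3 := tdist_triangle g x b
  have p := h.conn b (N * (s + 1) + s) (le_of_eq_of_le (by ring) h1) b g
    (by rw [tdist_self]; omega) (by omega) hb (hx' g g1)
  clear g1 g3
  induction p with
  | refl =>
    rw [tdist_self] at g2
    exact ⟨b, hb, by rw [tdist_self]; omega⟩
  | @tail u w _ k ih =>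
    by_cases a : s ≤ tdist u b
    · exact ih a
    · refine ⟨w, k.2.2.2.1, ?_⟩
      have a1 := tdist_triangle w u b
      have a2 : tdist w u ≤ 1 := by
        obtain ⟨i, e | e⟩ := k.2.2.2.2
        · rw [e]
          exact tdist_uv u i
        · rw [e, tdist_comm]
          exact tdist_uv w i
      omega

/-- The decay between the scales `s` and `s₁`. -/
theorem decay (hS : HolS) (N : ℕ) : ∃ C β : ℝ, 1 ≤ C ∧ 0 < β ∧ β ≤ 1 / 2 ∧
    ∀ (M : ℕ) [NeZero M] (R : Reg M) (B : Gauge M) (r : ℕ) (b : Tor M), IsSign B → Rgh R.In N r →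
    b ∉ R.In → ∀ s s₁ ρ : ℕ, 8 ≤ s → 6 * s ≤ s₁ → s₁ + 2 ≤ ρ → N * (s₁ + 3) ≤ ρ → ρ ≤ r →
    N * ((N + 1) * (s₁ + 1)) ≤ r → 2 * ρ + 9 ≤ M → 4 * s₁ < M → Flat B b (ρ + 2) →
    ∀ φ, Hom (R.pw * B) b (ρ + 2) φ →
      l2sq (ball b s) φ ≤ C * ((s : ℝ) / s₁ * (9 * (s / s₁)) ^ β) * l2sq (ball b (ρ + 2)) φ := by
  obtain ⟨C₁, hC₁, H₁⟩ := exists_pair
  obtain ⟨C₂, hC₂, H₂⟩ := chi_cmp
  obtain ⟨C₃, hC₃, H₃⟩ := pair_sup
  obtain ⟨C₄, hC₄, H₄⟩ := l2_of_sup C₁ (by linarith)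
  obtain ⟨C₅, β, hC₅, hβ, hβ', H₅⟩ := hS (2 * N)
  have h23 : 1 ≤ C₃ * C₂ := one_le_mul_of_one_le_of_one_le hC₃ hC₂
  have h45 : 1 ≤ C₄ * C₅ := one_le_mul_of_one_le_of_one_le hC₄ hC₅
  refine ⟨2 * (C₄ * C₅ * (C₃ * C₂)), β, by nlinarith, hβ, hβ', ?_⟩
  intro M _ R B r b hB hR hb s s₁ ρ h8 h6 hρ hN hr hN' hM hM' hF φ hφ
  obtain ⟨u, w, hp, he, hl⟩ := H₁ M R B hB b s₁ ρ hρ hM hF
    ((hR.conn b (s₁ + 2) (hN.trans hr)).mono' le_rfl hN) φ hφ
  set A := l2sq (ball b (s₁ + 1)) φ with hA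
  have hA0 : 0 ≤ A := l2sq_nonneg _ _
  have hA1 : A ≤ l2sq (ball b (ρ + 2)) φ := l2sq_mono b (by omega) φ
  have s0 : (8 : ℝ) ≤ s := by exact_mod_cast h8
  have s1 : (6 : ℝ) * s ≤ s₁ := by exact_mod_cast h6
  have hpos : (0 : ℝ) < s₁ := by linarith
  have hmass : ∑ x ∈ box s₁, ∑ k, (u x - w (x - cn k)) ≤ C₂ * A := by
    rw [sum_congr rfl fun x hx => sum_congr rfl fun k _ => he x k (mem_box.1 hx)]
    refine (sum_box_le R b (by omega) (fun y k => chi φ y k ^ 2) fun _ _ => sq_nonneg _).trans ?_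
    rw [hA, l2sq, mul_sum]
    exact sum_le_sum fun y _ => (H₂ M φ y).2
  have hsup : ∀ v, 2 * zd v 0 ≤ s₁ →
      |u v| * s₁ ≤ C₃ * (C₂ * A) ∧ |w v| * s₁ ≤ C₃ * (C₂ * A) := fun v hv => by
    refine H₃ s₁ u w _ _ hp (by omega) (fun t _ h2 => ?_) v hv _ hmass
    obtain ⟨f, hf, hf'⟩ := contour hR hb (s := t)
      (le_trans (Nat.mul_le_mul_left _ (Nat.mul_le_mul_left _ (by omega))) hN') (by omega)
    obtain ⟨x, hx, rfl⟩ := exists_fc R b f
    exact ⟨x, 0, hx.trans hf', by rw [cn_zero, sub_zero]; exact out_of hf⟩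
  have h1 := H₅ (s₁ / 2) u w _ _ (pair_mono hp (Nat.div_le_self _ _)) (C₃ * (C₂ * A) / s₁)
    (fun t ht => by
      have a : N * (t + 1 + 1) ≤ 2 * N * (t + 1) := by nlinarith
      obtain ⟨y, hy, hy'⟩ := hR.cork b hb (t + 1) (by omega)
      obtain ⟨x, hx, rfl⟩ := exists_fc R b y
      refine ⟨x, by omega, fun v hv => out_of_sq fun g hg => hy' g ?_⟩
      have a1 := tdist_triangle g (fc R b v) (fc R b x)
      have a2 := tdist_fc R b v x
      omega)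
    (fun x hx => by
      rw [le_div_iff₀ hpos, le_div_iff₀ hpos]
      exact hsup x (by omega)) (2 * s + 3) (by omega)
  have h2 := H₄ M R b φ u w s s₁ _ hp (by omega) hl fun v hv => (h1 v hv (by omega)).1
  have t1 : (s₁ : ℝ) ≤ 3 * (s₁ / 2 : ℕ) := by exact_mod_cast (by omega : s₁ ≤ 3 * (s₁ / 2))
  have t2 : ((2 * s + 3 : ℕ) : ℝ) / (s₁ / 2 : ℕ) ≤ 9 * (s / s₁) := by
    rw [← mul_div_assoc, div_le_div_iff₀ (by linarith) hpos]
    push_cast
    nlinarith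
  have t3 := Real.rpow_le_rpow (by positivity) t2 hβ.le
  have t4 : 0 ≤ (9 * ((s : ℝ) / s₁)) ^ β := by positivity
  have t5 := hA0.trans hA1
  refine h2.trans ?_
  calc _ ≤ C₄ * (2 * s) * (C₅ * (C₃ * (C₂ * l2sq (ball b (ρ + 2)) φ) / s₁) *
        (9 * ((s : ℝ) / s₁)) ^ β) := by
        gcongr
        linarith
    _ = _ := by ring

theorem hom (hS : HolS) (N : ℕ) : ∃ c β : ℝ, 1 ≤ c ∧ 0 < β ∧ β ≤ 1 / 2 ∧
    ∀ (M : ℕ) [NeZero M] (R : Reg M) (B : Gauge M) (r : ℕ) (b : Tor M), IsSign B → Rgh R.In N r →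
    4 * r ≤ M → b ∉ R.In → ∀ ρ : ℕ, (N * (N + 1) + 2) * (ρ + 1) ≤ r → Flat B b (2 * ρ) →
      HomDecH (R.pw * B) b 8 ρ c β := by
  obtain ⟨C, β, hC, hβ, hβ', H⟩ := decay hS N
  obtain ⟨D, hD⟩ : ∃ D : ℕ, D = 2 * N + 2 := ⟨_, rfl⟩
  have hD1 : (1 : ℝ) ≤ D := by exact_mod_cast (by omega : 1 ≤ D)
  have hc : 1 ≤ 36 * C * (D : ℝ) ^ 2 := by nlinarith [one_le_pow₀ (n := 2) hD1]
  refine ⟨36 * C * D ^ 2, β, hc, hβ, hβ', ?_⟩
  intro M _ R B r b hB hR hM hb ρ hr hF s ρ' h8 hs hρ φ hφ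
  have n1 := l2sq_nonneg (ball b ρ') φ
  have s0 : (8 : ℝ) ≤ s := by exact_mod_cast h8
  have s1 : (s : ℝ) ≤ ρ' := by exact_mod_cast hs
  have p0 : (0 : ℝ) < ρ' := by linarith
  have q0 : 0 < (s : ℝ) / ρ' := by positivity
  have q1 : (s : ℝ) / ρ' ≤ 1 := (div_le_one p0).2 s1
  have q2 : 0 ≤ ((s : ℝ) / ρ') ^ (1 + β) := by positivity
  suffices h : l2sq (ball b s) φ ≤
      36 * C * D ^ 2 * ((s : ℝ) / ρ') ^ (1 + β) * l2sq (ball b ρ') φ from
    h.trans (by gcongr; exact le_self_pow₀ hc two_ne_zero)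
  set s₁ := ρ' / D with hs₁
  have h4 : ρ' < D * (s₁ + 1) := Nat.lt_mul_div_succ _ (by omega)
  have h5 : D * s₁ ≤ ρ' := Nat.mul_div_le _ _
  by_cases h6 : 6 * s ≤ s₁
  · have e : ρ' - 2 + 2 = ρ' := by omega
    have a1 : N * (s₁ + 3) + s₁ + 4 ≤ ρ' := by
      rw [hD] at h5
      nlinarith
    have a2 : N * ((N + 1) * (s₁ + 1)) + 2 * (ρ + 1) ≤ r := by
      have : N * (N + 1) * (s₁ + 1) ≤ N * (N + 1) * (ρ + 1) := Nat.mul_le_mul_left _ (by omega)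
      nlinarith
    have k := H M R B r b hB hR hb s s₁ (ρ' - 2) h8 h6 (by omega) (by omega) (by omega) (by omega)
      (by omega) (by omega) (fun f hf => hF f (by omega)) φ (by rwa [e])
    rw [e] at k
    have u0 : (0 : ℝ) < s₁ := by exact_mod_cast (by omega : 0 < s₁)
    have u1 : (ρ' : ℝ) ≤ 2 * D * s₁ := by exact_mod_cast (by nlinarith : ρ' ≤ 2 * D * s₁)
    have u2 : (s : ℝ) / s₁ ≤ 2 * D * (s / ρ') := by
      rw [← mul_div_assoc, div_le_div_iff₀ u0 p0]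
      nlinarith
    have u3 : (9 * ((s : ℝ) / s₁)) ^ β ≤ 18 * D * ((s : ℝ) / ρ') ^ β := by
      refine (Real.rpow_le_rpow (by positivity) (by linarith : _ ≤ 18 * D * ((s : ℝ) / ρ'))
        hβ.le).trans ?_
      rw [Real.mul_rpow (by positivity) q0.le]
      refine mul_le_mul_of_nonneg_right ?_ (by positivity)
      exact (Real.rpow_le_rpow_of_exponent_le (by linarith) (by linarith : β ≤ 1)).trans
        (Real.rpow_one _).le
    refine k.trans (mul_le_mul_of_nonneg_right ?_ n1)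
    rw [Real.rpow_add q0, Real.rpow_one]
    calc _ ≤ C * (2 * D * (s / ρ') * (18 * D * ((s : ℝ) / ρ') ^ β)) := by gcongr
      _ = _ := by ring
  · have u1 : (ρ' : ℝ) ≤ 6 * D * s := by exact_mod_cast (by nlinarith : ρ' ≤ 6 * D * s)
    have u2 : ((s : ℝ) / ρ') ^ 2 ≤ ((s : ℝ) / ρ') ^ (1 + β) := by
      rw [← Real.rpow_two]
      exact Real.rpow_le_rpow_of_exponent_ge q0 q1 (by linarith)
    have u3 : 1 ≤ 6 * D * ((s : ℝ) / ρ') := by
      rw [← mul_div_assoc, le_div_iff₀ p0]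
      linarith
    have u4 : 1 ≤ 36 * C * D ^ 2 * ((s : ℝ) / ρ') ^ (1 + β) :=
      calc (1 : ℝ) ≤ (6 * D * ((s : ℝ) / ρ')) ^ 2 := one_le_pow₀ u3
        _ = 36 * 1 * D ^ 2 * ((s : ℝ) / ρ') ^ 2 := by ring
        _ ≤ _ := by gcongr
    exact (l2sq_mono b hs φ).trans (le_mul_of_one_le_left n1 u4)

theorem solv (N : ℕ) : ∃ c : ℝ, 1 ≤ c ∧ ∀ (M : ℕ) [NeZero M] (R : Reg M) (B : Gauge M) (r : ℕ)
    (b : Tor M), IsSign B → Rgh R.In N r → 4 * r ≤ M → ∀ ρ : ℕ, 2 * (ρ + 1) ≤ r →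
    Flat B b (2 * ρ) → Solv (R.pw * B) b 8 ρ c := by
  obtain ⟨C, hC, hco⟩ := B3b.coercive_of ext_est rellich
  refine ⟨C * (N + 1), one_le_mul_of_one_le_of_one_le hC (by linarith [Nat.cast_nonneg (α := ℝ) N]),
    fun M _ R B r b hB hR hM ρ hr hF ρ' h1 h2 σ => ?_⟩
  have n1 := l2sq_nonneg (ball b ρ') σ
  obtain ⟨w, hw, hw'⟩ := exists_solve (R.pw * B) (ball b ρ') σ
    (c := (C * (N + 1)) ^ 2 * (ρ' : ℝ) ^ 2 * l2sq (ball b ρ') σ) (by positivity)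
    fun ζ hζ => by
      have k1 := hco M R B hB b ρ' N h1 (by omega) (fun f hf => hF f (by omega))
        ((hR.tr b).mono' (by omega) le_rfl) ζ
        fun t ht => hζ t fun h => by have := G.mem_ball.1 h; omega
      rw [dotProduct_comm]
      refine (E5.dot_sq_le hζ σ).trans ((mul_le_mul_of_nonneg_right k1 n1).trans ?_)
      exact le_of_eq (by ring)
  exact ⟨w, hw, fun t ht => hw' t (G.mem_ball.2 ht)⟩

end An2

theorem decH_of (hS : HolS) : DecH := by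
  intro N
  obtain ⟨c, β, hc, hβ, hβ', h1⟩ := An2.hom hS N
  obtain ⟨c', hc', h2⟩ := An2.solv N
  refine ⟨c + c', β, by linarith, hβ, hβ', N * (N + 1) + 2,
    fun M _ R B r b hB hR hM hb ρ hr hF => ⟨fun s ρ' a1 a2 a3 φ hφ => ?_, fun ρ' a1 a2 σ => ?_⟩⟩
  · have := l2sq_nonneg (ball b ρ') φ
    refine (h1 M R B r b hB hR hM hb ρ hr hF s ρ' a1 a2 a3 φ hφ).trans ?_
    gcongr
    linarith
  · have := l2sq_nonneg (ball b ρ') σ
    obtain ⟨w, k1, k2⟩ := h2 M R B r b hB hR hM ρ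
      (le_trans (Nat.mul_le_mul_right _ (by omega)) hr) hF ρ' a1 a2 σ
    refine ⟨w, k1.trans ?_, k2⟩
    gcongr
    linarith

end Vale.Agent.P144Z
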